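import Vale.Agent.P011.D4Y.H408.PathI
import Vale.Agent.P011.D4Y.H862.Bas
import Vale.Agent.P011.D4Y.H68.Nf
import Vale.Agent.P011.D4X.H69.NearGen

/-!
Block D4Y: the set of the embeddings over the real places where the group is not compact; the
types of the vectors.
-/

open Filter Topology NumberField
open scoped ComplexConjugate

set_option linter.unusedSectionVars false

namespace Vale.Agent.P011.D4Y

open Vale.Agent.P011.MPQ Vale.Agent.P011.D4 Vale.Agent.P011.D4.Oct Vale.Agent.P011.D4X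

section

variable {k L E : Type} [Field k] [Field L] [Field E] [Algebra k L] [Algebra k E]
  [Algebra L E] [IsScalarTower k L E] {ρ σ ι : E ≃ₐ[k] E} {α : E}
  {a b c : kˣ} {q : Lˣ} (H : HyI ρ σ ι α a b c q)

include H

theorem BdI_rho : ∀ W ∈ Bd ρ σ q, W.comp (ρ : E →+* E) ∈ Bd ρ σ q := by
  rintro W ⟨h1, h2⟩
  refine ⟨fun x => ?_, fun h3 => h2 ?_⟩
  · change W (ρ (σ x)) = conj (W (ρ x))
    rw [← H.comm, h1]
  · obtain ⟨g1, g2, g3⟩ := h3
    change 0 < (W (ρ _)).re at g1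
    change 0 < (W (ρ (ρ _))).re at g2
    change 0 < (W (ρ (ρ (ρ _)))).re at g3
    rw [H.ρ3] at g3
    exact ⟨g3, g1, g2⟩

theorem BdI_sig : ∀ W ∈ Bd ρ σ q, W.comp (σ : E →+* E) ∈ Bd ρ σ q := by
  rintro W ⟨h1, h2⟩
  refine ⟨fun x => ?_, fun h3 => h2 ?_⟩
  · change W (σ (σ x)) = conj (W (σ x))
    rw [h1]
  · obtain ⟨g1, g2, g3⟩ := h3
    change 0 < (W (σ _)).re at g1
    change 0 < (W (σ (ρ _))).re at g2
    change 0 < (W (σ (ρ (ρ _)))).re at g3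
    rw [H.σL] at g1
    rw [H.σρL] at g2
    rw [H.σρρL] at g3
    exact ⟨g1, g2, g3⟩

theorem BdI_iota : ∀ W ∈ Bd ρ σ q, W.comp (ι : E →+* E) ∈ Bd ρ σ q := by
  rintro W ⟨h1, h2⟩
  refine ⟨fun x => ?_, fun h3 => h2 ?_⟩
  · change W (ι (σ x)) = conj (W (ι x))
    rw [← H.σι, h1]
  · obtain ⟨g1, g2, g3⟩ := h3
    change 0 < (W (ι _)).re at g1
    change 0 < (W (ι (ρ _))).re at g2
    change 0 < (W (ι (ρ (ρ _)))).re at g3
    rw [H.ιL] at g1
    rw [H.ιρL'] at g2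
    rw [H.ιρρL] at g3
    exact ⟨g3, g2, g1⟩

theorem BdI_finite [NumberField k] : (Bd ρ σ q).Finite := by
  have := H.numberField
  exact Set.toFinite _

theorem exists_deltaI : ∃ δ : E, δ ≠ 0 ∧ ι δ = -δ := by
  obtain ⟨t, ht⟩ := H.ρL
  exact exists_delta H.ρ3 H.ι2 H.ιρ ht

variable [NeZero (2 : E)]

theorem bJI_fix (v : OctL E a b c) :
    σ (bil v (Jm ρ σ α q v)) = bil v (Jm ρ σ α q v) := by
  have h1 := H.bil_Jm v (Jm ρ σ α q v)
  rw [H.Jm_Jm, bil_smul_right, bil_comm (Jm ρ σ α q v) v] at h1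
  have h2 : rr ρ q ≠ 0 := by
    have h3 : algebraMap L E (q : L) ≠ 0 := (map_ne_zero _).2 q.ne_zero
    exact mul_ne_zero h3 (mul_ne_zero h3 ((map_ne_zero_iff ρ ρ.injective).2 h3))
  exact (mul_left_cancel₀ h2 h1).symm

theorem bJI_smul (t : E) (v : OctL E a b c) :
    bil (t • v) (Jm ρ σ α q (t • v)) = t * σ t * bil v (Jm ρ σ α q v) := by
  rw [H.Jm_smul, bil_smul_left, bil_smul_right, mul_assoc]

/-- **The stable singular elements near a given one**, from the step lemma and a chain. -/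
theorem near_I_of [NumberField k] {P : OctL E a b c → Prop}
    (hsm : ∀ t : E, t ≠ 0 → ∀ v, P v → P (t • v))
    (step : ∀ v v' : OctL E a b c, Pt ρ v → (∃ μ : E, invo ι v = μ • v) → Pt ρ v' →
      (∃ μ : E, invo ι v' = μ • v') → Nb ρ v v' →
      (∀ W ∈ Bd ρ σ q, 0 < (W (bil v' (Jm ρ σ α q v') / bil v (Jm ρ σ α q v))).re) → P v → P v')
    {p u0 z0 v0 : OctL E a b c} (hp : Pt ρ p) (hpI : invo ι p = -p) (hu : Pt ρ u0)
    (huI : invo ι u0 = -u0) (hpu : Nb ρ p u0) (hpt : ∀ t : E, u0 ≠ t • p)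
    (hpv : bil p v0 ≠ 0) (hv0I : invo ι v0 = -v0) (huv : bil u0 v0 = 0) {s : E} (hs : s ≠ 0)
    (hz : tri ρ u0 v0 = s • z0) (hz0I : invo ι z0 = -z0) (h0 : bil v0 (Jm ρ σ α q v0) ≠ 0)
    (h1 : bil p (Jm ρ σ α q p) = bil v0 (Jm ρ σ α q v0))
    (h2 : bil u0 (Jm ρ σ α q u0) = bil v0 (Jm ρ σ α q v0))
    (h3 : bil z0 (Jm ρ σ α q z0) = bil v0 (Jm ρ σ α q v0)) (hP : P p) :
    ∀ᶠ v in nh (Bd ρ σ q) v0, Pt ρ v → (∃ μ : E, invo ι v = μ • v) → P v := by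
  obtain ⟨δ, hδ, hδι⟩ := exists_deltaI H
  have hone : ∀ {x : E}, x = Oct.bil v0 (Jm ρ σ α q v0) → ∀ W ∈ Bd ρ σ q,
      0 < (W (x / Oct.bil v0 (Jm ρ σ α q v0))).re := by
    rintro x rfl W -
    rw [div_self h0, map_one, Complex.one_re]
    exact one_pos
  exact near_genI_of (BdI_finite H) (BdI_rho H) (BdI_sig H) (BdI_iota H) (fun W hW => hW.1)
    H.ρ3 H.ι2 H.ιρ hδ hδι (bJI_fix H) (bJI_smul H) hsm step hp hpI hu huI hpu hpt hpv hv0I huv hs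
    hz hz0I h0 (hone h1) (hone h2) (hone h3) hP

end

end Vale.Agent.P011.D4Y
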