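import Vale.Agent.P011.D4X.H69.Z5
import Vale.Agent.P011.D4Y.H69.Path
import Vale.Agent.P011.D4Y.H862.Bas
import Vale.Agent.P011.D4Y.H553.TQ
import Vale.Agent.P011.D4Y.H62.KC

/-!
Block D4Y: the involutions of the standard plane after a change of the quadratic extension.
-/

namespace Vale.Agent.P011.D4Y

open Vale.Agent.P011.MPQ Vale.Agent.P011.D4 Vale.Agent.P011.D4.Oct Vale.Agent.P011.E6
open Vale.Agent.P011.D4X

section ext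

variable {k E : Type} [Field k] [Field E] [Algebra k E] {a b c : kˣ}
  {O : Type} [Field O] [Algebra k O] [Algebra E O] [IsScalarTower k E O]

theorem Im_oO {ι : E ≃ₐ[k] E} {ι' : O ≃ₐ[k] O}
    (h : ∀ t, ι' (algebraMap E O t) = algebraMap E O (ι t)) (x : OctL E a b c) :
    Im ι' (oO O x) = oO O (Im ι x) := by
  rw [Im, Im, ← oO_star, omap_oO h]

end ext

section plane

variable {k O : Type} [Field k] [Field O] [Algebra k O] [NeZero (2 : O)] {ρ' σ' ι' : O ≃ₐ[k] O}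
  {α β : O} {a b c b' c' : kˣ} {j l : Oct a b c}

theorem inS_Im {h : Trip a b' c' gi j l} {w : Qt a b'}
    {y : OctL O a b c} (hy : InS β h w y) (hβ : ι' β = β) : InS β h w (Im ι' y) := by
  obtain ⟨x, rfl⟩ := hy
  refine ⟨-qmap ι' x, ?_⟩
  rw [← tripO_Im]
  congr 1
  ext1
  · change qmap ι' (star 0) = 0
    rw [star_zero, qmap_zero]
  · change qmap ι' (-(eW β w * x)) = eW β w * -qmap ι' x
    rw [qmap_neg, qmap_mul, qmap_eW hβ, mul_neg]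

/-- A singular vector of the new model in the eigenspace of the involution. -/
theorem exists_singI {E1 : Type} [Field E1] [Algebra k E1] [Algebra E1 O] [IsScalarTower k E1 O]
    {ρ1 ι1 : E1 ≃ₐ[k] E1} {a1 b1 c1 : kˣ}
    (hρ1 : ∀ t, ρ' (algebraMap E1 O t) = algebraMap E1 O (ρ1 t))
    (hι1 : ∀ t, ι' (algebraMap E1 O t) = algebraMap E1 O (ι1 t))
    (hfix : ∀ t, σ' t = t → ∃ s : E1, algebraMap E1 O s = t) (σ2 : ∀ t, σ' (σ' t) = t)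
    (ι2 : ∀ t, ι1 (ι1 t) = t) {δ : E1} (hδ : δ ≠ 0) (hδι : ι1 δ = -δ)
    (hσα : σ' α = -α) (hα : α ≠ 0) (hσβ : σ' β = β) (hρβ : ρ' β = β) (hιβ : ι' β = β) {D : k}
    (hβD : β * β = algebraMap k O D) (hβ : β ≠ 0) {q q' : O}
    {u : OctL O a1 b1 c1 ≃ₗ[O] OctL O a b c} {e s m : O} (he : e ≠ 0) (hs : s ≠ 0) (hm : m ≠ 0)
    (hu1 : ∀ x y, tri ρ' (u x) (u y) = e • u (tri ρ' x y))
    (hu2 : ∀ x, Jq σ' α q q' (u x) = s • u (omap σ' x))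
    (hu3 : ∀ x, Im ι' (u x) = m • u (Im ι' x))
    (h : Trip a b' c' gi j l) {w : Qt a b'} (hw0 : w.re = 0) (hw : w * w = D • (1 : Qt a b')) :
    ∃ v : OctL E1 a1 b1 c1, Pt ρ1 v ∧ Im ι1 v = v ∧ tQ O h (u (oO O v)) = -u (oO O v) := by
  obtain ⟨y, hy, hy0⟩ := InS.ne (β := β) h w hw0
  have hss : ∀ x, InS β h w (u x) → InS β h w (u (omap σ' x)) := by
    intro x hx
    have h1 := (hx.Jq_mem (σ' := σ') (α := α) hσβ q q').smul s⁻¹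
    rwa [hu2, smul_smul, inv_mul_cancel₀ hs, one_smul] at h1
  have hsi : ∀ x, InS β h w (u x) → InS β h w (u (Im ι' x)) := by
    intro x hx
    have h1 := (inS_Im (ι' := ι') hx hιβ).smul m⁻¹
    rwa [hu3, smul_smul, inv_mul_cancel₀ hm, one_smul] at h1
  have key : ∃ x, x ≠ 0 ∧ InS β h w (u x) ∧ omap σ' x = x := by
    have hx0 : u.symm y ≠ 0 := fun h0 => hy0 (by rw [← u.apply_symm_apply y, h0, map_zero])
    have hxS : InS β h w (u (u.symm y)) := by rwa [u.apply_symm_apply]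
    generalize u.symm y = x at hx0 hxS
    by_cases hx : x + omap σ' x = 0
    · refine ⟨α • x, smul_ne_zero hα hx0, ?_, ?_⟩
      · rw [map_smul]
        exact hxS.smul α
      · rw [omap_smul, hσα, eq_neg_of_add_eq_zero_right hx, smul_neg, neg_smul, neg_neg]
    · refine ⟨_, hx, ?_, ?_⟩
      · rw [map_add]
        exact hxS.add (hss x hxS)
      · rw [omap_add, add_comm]
        congr 1
        ext1 <;> ext <;> simp [omap, σ2]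
  obtain ⟨x, hx0, hxS, hxσ⟩ := key
  obtain ⟨v0, rfl⟩ := exists_oO hfix hxσ
  have hv0 : v0 ≠ 0 := fun h0 => hx0 (by rw [h0, oO_zero])
  obtain ⟨v, hv, hvI, hv'⟩ := exists_fix hδ hδι ι2 hv0
  have hvS : InS β h w (u (oO O v)) := by
    rcases hv' with rfl | rfl
    · rw [oO_add, map_add]
      refine hxS.add ?_
      have h1 := hsi _ hxS
      rwa [Im_oO hι1] at h1
    · rw [oO_smul, map_smul]
      exact hxS.smul _
  refine ⟨v, ⟨hv, ?_⟩, hvI, hvS.tQ_eq⟩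
  apply oO_inj (O := O)
  rw [oO_zero, ← tri_oO hρ1]
  apply u.injective
  have h1 := hu1 (oO O v) (oO O v)
  rw [hvS.tri_self hρβ hw0 hw hβD hβ] at h1
  rw [map_zero]
  exact (smul_eq_zero.mp h1.symm).resolve_left he

end plane

section tq

variable {k L E : Type} [Field k] [Field L] [Field E] [Algebra k L] [Algebra k E] [Algebra L E]
  [IsScalarTower k L E] [NeZero (2 : E)] {ρ σ ι : E ≃ₐ[k] E} {α : E} {a b c b' c' : kˣ} {q : Lˣ}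
  {j l : Oct a b c}

theorem t0_ImZ (x : OctL E a b c) : t0 E a b c (Im ι x) = Im ι (t0 E a b c x) := by
  ext1
  · rfl
  · change -(qmap ι (-x.snd)) = qmap ι (- -x.snd)
    rw [← qmap_neg]

theorem tQ_memI (h : Trip a b' c' gi j l) : tQ E h ∈ GTI ρ σ ι α a b c q := by
  obtain ⟨h1, h2⟩ := tQ_mem (ρ := ρ) (σ := σ) (α := α) (q := q) h
  refine ⟨h1, h2, fun x => ?_⟩
  obtain ⟨x, rfl⟩ := (tripO E h).surjective x
  change tripO E h (t0 E a b' c' ((tripO E h).symm _)) =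
    Im ι (tripO E h (t0 E a b' c' ((tripO E h).symm _)))
  rw [← tripO_Im, ← tripO_Im, LinearEquiv.symm_apply_apply, LinearEquiv.symm_apply_apply, t0_ImZ]

theorem isKapI_oneZ {g : OctL E a b c ≃ₗ[E] OctL E a b c}
    (hg : ∀ x y, g (tri ρ x y) = tri ρ (g x) (g y)) : IsKapI ρ g (1 : Lˣ) := fun x y => by
  rw [Units.val_one, map_one, map_one, one_smul]
  exact hg x y

variable (ρ σ ι α q) in
/-- The involution, as an element of `ATI`. -/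
noncomputable def tATI (h : Trip a b' c' gi j l) : ATI ρ σ ι α a b c q :=
  ⟨tQ E h, ⟨1, isKapI_oneZ (tQ_memI (ρ := ρ) (σ := σ) (ι := ι) (α := α) (q := q) h).1⟩,
    (tQ_memI (ρ := ρ) (σ := σ) (ι := ι) (α := α) (q := q) h).2⟩

theorem tATI_kap (h : Trip a b' c' gi j l) : IsKapI ρ (tATI ρ σ ι α q h).1 (1 : Lˣ) :=
  isKapI_oneZ (tQ_memI (ρ := ρ) (σ := σ) (ι := ι) (α := α) (q := q) h).1

theorem tATI_sq (h : Trip a b' c' gi j l) : tATI ρ σ ι α q h * tATI ρ σ ι α q h = 1 := by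
  apply Subtype.ext
  apply LinearEquiv.ext
  intro x
  exact tQ_tQ h x

theorem tATI_ne (h : Trip a b' c' gi j l) : tATI ρ σ ι α q h ≠ 1 := by
  intro h1
  have h2 : tQ E h (tripO E h gl) = tripO E h gl :=
    congrArg (fun z : ATI ρ σ ι α a b c q => z.1 (tripO E h gl)) h1
  change tripO E h (t0 E a b' c' ((tripO E h).symm (tripO E h gl))) = tripO E h gl at h2
  rw [LinearEquiv.symm_apply_apply] at h2
  have h3 := congrArg (fun z : OctL E a b' c' => z.snd.re) ((tripO E h).injective h2)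
  change -(1 : E) = 1 at h3
  exact NeZero.ne (2 : E) (by linear_combination -h3)

theorem mem_stabI_iff {h : Trip a b' c' gi j l} {z : ATI ρ σ ι α a b c q} :
    z ∈ stabI ρ σ ι α q h ↔ z * tATI ρ σ ι α q h = tATI ρ σ ι α q h * z := by
  constructor
  · intro hz
    exact Subtype.ext hz
  · intro hz
    exact congrArg Subtype.val hz

end tq

section main

variable {k L E E1 O : Type} [Field k] [Field L] [Field E] [Field E1] [Field O] [Algebra k L]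
  [Algebra k E] [Algebra L E] [IsScalarTower k L E] [Algebra k E1] [Algebra L E1]
  [IsScalarTower k L E1] [Algebra k O] [Algebra E O] [Algebra E1 O] [IsScalarTower k E O]
  [IsScalarTower k E1 O] [NeZero (2 : k)] [NeZero (2 : E)] [NeZero (2 : E1)] [NeZero (2 : O)]
  {ρ σ ι : E ≃ₐ[k] E} {α : E} {a b c : kˣ} {q : Lˣ}
  {ρ1 σ1 ι1 : E1 ≃ₐ[k] E1} {α1 : E1} {a1 b1 c1 : kˣ} {q1 : Lˣ}
  {ρ' σ' ι' : O ≃ₐ[k] O} {b' c' : kˣ} {j l : Oct a b c}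

/-- Conjugates of elements of multiplier one. -/
theorem kap_conjZ {y T : OctL E a b c ≃ₗ[E] OctL E a b c} {κ : Lˣ} (hy : IsKapI ρ y κ)
    (hT : IsKapI ρ T (1 : Lˣ)) (x z : OctL E a b c) :
    (y * T * y⁻¹) (tri ρ x z) = tri ρ ((y * T * y⁻¹) x) ((y * T * y⁻¹) z) := by
  have hi : ∀ v, y (y⁻¹ v) = v := fun v => by
    rw [← LinearEquiv.mul_apply, mul_inv_cancel]; rfl
  have h0 : ρ (algebraMap L E (κ : L)) ≠ 0 := by
    rw [map_ne_zero_iff _ ρ.injective, map_ne_zero_iff _ (algebraMap L E).injective]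
    exact κ.ne_zero
  have h1 : y⁻¹ (tri ρ x z) = (ρ (algebraMap L E (κ : L)))⁻¹ • tri ρ (y⁻¹ x) (y⁻¹ z) := by
    apply y.injective
    rw [hi, map_smul, hy, hi, hi, smul_smul, inv_mul_cancel₀ h0, one_smul]
  have h2 : ∀ v w : OctL E a b c, T (tri ρ v w) = tri ρ (T v) (T w) := fun v w => by
    rw [hT, Units.val_one, map_one, map_one, one_smul]
  change y (T (y⁻¹ (tri ρ x z))) = tri ρ (y (T (y⁻¹ x))) (y (T (y⁻¹ z)))
  rw [h1, map_smul, map_smul, h2, hy, smul_smul, inv_mul_cancel₀ h0, one_smul]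

/-- **Z5** (general form). The involution of `Q'` is carried, by the change of the quadratic
extension and an element of the subgroup generated by the centralisers, to an involution of the new
standard plane. -/
theorem z5I_of (H1 : HyI ρ1 σ1 ι1 α1 a1 b1 c1 q1)
    (htQ : ∀ t ∈ GTI ρ1 σ1 ι1 α1 a1 b1 c1 q1, t ≠ 1 → t * t = 1 → t (ep α1) = ep α1 →
      ∃ (b2 c2 : kˣ) (j1 l1 : Oct a1 b1 c1) (h1 : Trip a1 b2 c2 gi j1 l1), t = tQ E1 h1)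
    (hρ1 : ∀ t, ρ' (algebraMap E1 O t) = algebraMap E1 O (ρ1 t))
    (hσ1 : ∀ t, σ' (algebraMap E1 O t) = algebraMap E1 O t)
    (hι1 : ∀ t, ι' (algebraMap E1 O t) = algebraMap E1 O (ι1 t))
    (hfix : ∀ t, σ' t = t → ∃ s : E1, algebraMap E1 O s = t) (σ2 : ∀ t, σ' (σ' t) = t)
    {β : O} (hσβ : σ' β = -β) (hβ : β ≠ 0) {r r' : O}
    {u : OctL O a1 b1 c1 ≃ₗ[O] OctL O a b c} {e s m : O} (he : e ≠ 0) (hs : s ≠ 0) (hm : m ≠ 0)
    (hu1 : ∀ x y, tri ρ' (u x) (u y) = e • u (tri ρ' x y))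
    (hu2 : ∀ x, Jq σ' β r r' (u x) = s • u (omap σ' x))
    (hu3 : ∀ x, Im ι' (u x) = m • u (Im ι' x))
    (φ : ATI ρ σ ι α a b c q ≃* ATI ρ1 σ1 ι1 α1 a1 b1 c1 q1)
    (hφ : ∀ (z : ATI ρ σ ι α a b c q) (zO : OctL O a b c ≃ₗ[O] OctL O a b c),
      (∀ x, zO (oO O x) = oO O (z.1 x)) → ∀ x, u (oO O ((φ z).1 x)) = zO (u (oO O x)))
    (hκ : ∀ (z : ATI ρ σ ι α a b c q) (κ : Lˣ), IsKapI ρ z.1 κ → IsKapI ρ1 (φ z).1 κ)
    (hgen : ∀ v : OctL E1 a1 b1 c1, Pt ρ1 v → (∃ μ : E1, Im ι1 v = μ • v) →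
      ∃ y ∈ stabsI ρ1 σ1 ι1 α1 a1 b1 c1 q1, ∃ t : E1,
      t ≠ 0 ∧ y.1 (tri ρ1 v (Jm ρ1 σ1 α1 q1 v)) = t • ep α1)
    (h : Trip a b' c' gi j l) {w : Qt a b'} (hw0 : w.re = 0)
    (hw : w * w = (a1 : k) • (1 : Qt a b')) :
    ∃ y ∈ stabsI ρ1 σ1 ι1 α1 a1 b1 c1 q1, ∃ (b2 c2 : kˣ) (j1 l1 : Oct a1 b1 c1)
      (h1 : Trip a1 b2 c2 gi j1 l1),
        y * φ (tATI ρ σ ι α q h) * y⁻¹ = tATI ρ1 σ1 ι1 α1 q1 h1 := by
  have hβ1 : algebraMap E1 O α1 * algebraMap E1 O α1 = algebraMap k O (a1 : k) := by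
    rw [← map_mul, H1.α2, ← IsScalarTower.algebraMap_apply]
  have hβ10 : algebraMap E1 O α1 ≠ 0 := by
    intro h0
    rw [h0, mul_zero] at hβ1
    exact (map_ne_zero (algebraMap k O)).mpr a1.ne_zero hβ1.symm
  obtain ⟨s0, hs0⟩ := H1.ρL
  obtain ⟨δ, hδ, hδι⟩ := exists_delta H1.ρ3 H1.ι2 H1.ιρ hs0
  obtain ⟨v, hv, hvI, hvt⟩ := exists_singI (E1 := E1) (a1 := a1) (b1 := b1) (c1 := c1) hρ1 hι1 hfix
    σ2 H1.ι2 hδ hδι hσβ hβ (hσ1 α1) (by rw [hρ1, H1.ρα]) (by rw [hι1, H1.ια]) hβ1 hβ10 he hs hm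
    hu1 hu2 hu3 h hw0 hw
  set T := φ (tATI ρ σ ι α q h) with hT
  have hTv : T.1 v = -v := by
    apply oO_inj (O := O)
    apply u.injective
    rw [hφ (tATI ρ σ ι α q h) (tQ O h) (fun x => tQ_oO h x), hvt, oO_neg, map_neg]
  have hTk : IsKapI ρ1 T.1 (1 : Lˣ) := hκ _ _ (tATI_kap h)
  obtain ⟨y, hy, t, ht, hyt⟩ := hgen v hv ⟨1, by rw [one_smul]; exact hvI⟩
  have hneg : Jm ρ1 σ1 α1 q1 (-v) = -Jm ρ1 σ1 α1 q1 v := by
    ext1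
    · change mq a1 b1 α1 _ * qmap σ1 (-v.fst) * _ = -(mq a1 b1 α1 _ * qmap σ1 v.fst * _)
      rw [qmap_neg, mul_neg, neg_mul]
    · change qmap σ1 (-v.snd) * _ = -(qmap σ1 v.snd * _)
      rw [qmap_neg, neg_mul]
  have hTs : T.1 (tri ρ1 v (Jm ρ1 σ1 α1 q1 v)) = tri ρ1 v (Jm ρ1 σ1 α1 q1 v) := by
    rw [hTk, Units.val_one, map_one, map_one, one_smul, T.2.2.1, hTv, hneg, tri_neg_left,
      tri_neg_right, neg_neg]
  set S := y * T * y⁻¹ with hS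
  have hSS : S * S = 1 := by
    have e1 : T * T = 1 := by rw [hT, ← map_mul, tATI_sq, map_one]
    calc S * S = y * (T * T) * y⁻¹ := by rw [hS]; group
      _ = 1 := by rw [e1]; group
  have hS1 : S ≠ 1 := by
    intro h1
    apply tATI_ne (ρ := ρ) (σ := σ) (ι := ι) (α := α) (q := q) h
    apply φ.injective
    rw [map_one, ← hT]
    have e2 : T = y⁻¹ * S * y := by rw [hS]; group
    rw [e2, h1]
    group
  have hSe : S.1 (ep α1) = ep α1 := by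
    have e3 : y.1⁻¹ (t • ep α1) = tri ρ1 v (Jm ρ1 σ1 α1 q1 v) := by
      rw [← hyt]
      exact y.1.symm_apply_apply _
    have e4 : S.1 (t • ep α1) = t • ep α1 := by
      change y.1 (T.1 (y.1⁻¹ (t • ep α1))) = t • ep α1
      rw [e3, hTs, hyt]
    rw [map_smul] at e4
    exact smul_right_injective _ ht e4
  have hSG : S.1 ∈ GTI ρ1 σ1 ι1 α1 a1 b1 c1 q1 := by
    obtain ⟨κ, hκy⟩ := y.2.1
    exact ⟨fun x z => kap_conjZ hκy hTk x z, S.2.2⟩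
  obtain ⟨b2, c2, j1, l1, h1, h2⟩ := htQ _ hSG (fun h0 => hS1 (Subtype.ext h0))
    (congrArg Subtype.val hSS) hSe
  exact ⟨y, hy, b2, c2, j1, l1, h1, Subtype.ext h2⟩

/-- **Z5.** -/
theorem z5I (H1 : HyI ρ1 σ1 ι1 α1 a1 b1 c1 q1)
    (hρ1 : ∀ t, ρ' (algebraMap E1 O t) = algebraMap E1 O (ρ1 t))
    (hσ1 : ∀ t, σ' (algebraMap E1 O t) = algebraMap E1 O t)
    (hι1 : ∀ t, ι' (algebraMap E1 O t) = algebraMap E1 O (ι1 t))
    (hfix : ∀ t, σ' t = t → ∃ s : E1, algebraMap E1 O s = t) (σ2 : ∀ t, σ' (σ' t) = t)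
    {β : O} (hσβ : σ' β = -β) (hβ : β ≠ 0) {r r' : O}
    {u : OctL O a1 b1 c1 ≃ₗ[O] OctL O a b c} {e s m : O} (he : e ≠ 0) (hs : s ≠ 0) (hm : m ≠ 0)
    (hu1 : ∀ x y, tri ρ' (u x) (u y) = e • u (tri ρ' x y))
    (hu2 : ∀ x, Jq σ' β r r' (u x) = s • u (omap σ' x))
    (hu3 : ∀ x, Im ι' (u x) = m • u (Im ι' x))
    (φ : ATI ρ σ ι α a b c q ≃* ATI ρ1 σ1 ι1 α1 a1 b1 c1 q1)
    (hφ : ∀ (z : ATI ρ σ ι α a b c q) (zO : OctL O a b c ≃ₗ[O] OctL O a b c),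
      (∀ x, zO (oO O x) = oO O (z.1 x)) → ∀ x, u (oO O ((φ z).1 x)) = zO (u (oO O x)))
    (hκ : ∀ (z : ATI ρ σ ι α a b c q) (κ : Lˣ), IsKapI ρ z.1 κ → IsKapI ρ1 (φ z).1 κ)
    (hgen : ∀ v : OctL E1 a1 b1 c1, Pt ρ1 v → (∃ μ : E1, Im ι1 v = μ • v) →
      ∃ y ∈ stabsI ρ1 σ1 ι1 α1 a1 b1 c1 q1, ∃ t : E1,
      t ≠ 0 ∧ y.1 (tri ρ1 v (Jm ρ1 σ1 α1 q1 v)) = t • ep α1)
    (h : Trip a b' c' gi j l) {w : Qt a b'} (hw0 : w.re = 0)
    (hw : w * w = (a1 : k) • (1 : Qt a b')) :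
    ∃ y ∈ stabsI ρ1 σ1 ι1 α1 a1 b1 c1 q1, ∃ (b2 c2 : kˣ) (j1 l1 : Oct a1 b1 c1)
      (h1 : Trip a1 b2 c2 gi j1 l1),
        y * φ (tATI ρ σ ι α q h) * y⁻¹ = tATI ρ1 σ1 ι1 α1 q1 h1 :=
  z5I_of H1 (fun _ ht h1 h2 he => exists_tQI H1 ht h1 h2 he) hρ1 hσ1 hι1 hfix σ2 hσβ hβ he hs hm
    hu1 hu2 hu3 φ hφ hκ hgen h hw0 hw

/-- The centralisers correspond. -/
theorem z5I_stab {φ : ATI ρ σ ι α a b c q ≃* ATI ρ1 σ1 ι1 α1 a1 b1 c1 q1}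
    {h : Trip a b' c' gi j l} {y z : ATI ρ1 σ1 ι1 α1 a1 b1 c1 q1} {b2 c2 : kˣ}
    {j1 l1 : Oct a1 b1 c1} {h1 : Trip a1 b2 c2 gi j1 l1}
    (hy : y * φ (tATI ρ σ ι α q h) * y⁻¹ = tATI ρ1 σ1 ι1 α1 q1 h1)
    (hz : z ∈ stabI ρ1 σ1 ι1 α1 q1 h1) : φ.symm (y⁻¹ * z * y) ∈ stabI ρ σ ι α q h := by
  rw [mem_stabI_iff] at hz ⊢
  rw [← hy] at hz
  apply φ.injective
  rw [φ.map_mul, φ.map_mul, MulEquiv.apply_symm_apply]
  have e1 : y⁻¹ * (z * (y * φ (tATI ρ σ ι α q h) * y⁻¹)) * y =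
      y⁻¹ * ((y * φ (tATI ρ σ ι α q h) * y⁻¹) * z) * y := by rw [hz]
  calc y⁻¹ * z * y * φ (tATI ρ σ ι α q h) = y⁻¹ * (z * (y * φ (tATI ρ σ ι α q h) * y⁻¹)) * y := by
        group
    _ = y⁻¹ * ((y * φ (tATI ρ σ ι α q h) * y⁻¹) * z) * y := e1
    _ = φ (tATI ρ σ ι α q h) * (y⁻¹ * z * y) := by group

end main

section mainK

open Vale.Agent.P011.D4X.H62 (oin IsBc KCH) 
open Vale.Agent.P011.D4Y.H62 (KCHI)

variable {k L E E1 O : Type} [Field k] [Field L] [Field E] [Field E1] [Field O] [Algebra k L]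
  [Algebra k E] [Algebra L E] [Algebra k E1] [Algebra L E1] [Algebra k O] [Algebra L O]
  [Algebra E O] [Algebra E1 O] [IsScalarTower k L E] [IsScalarTower k L E1]
  [IsScalarTower k E O] [IsScalarTower k E1 O]
  [NeZero (2 : k)] [NeZero (2 : E)] [NeZero (2 : E1)] [NeZero (2 : O)]
  {ρ σ ι : E ≃ₐ[k] E} {ρ1 σ1 ι1 : E1 ≃ₐ[k] E1} {ρ' σ' τ' ι' : O ≃ₐ[k] O} {α : E} {α1 : E1}
  {a b c a1 b1 c1 : kˣ} {q q1 : Lˣ} {u : OctL O a1 b1 c1 ≃ₗ[O] OctL O a b c} {b' c' : kˣ}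
  {j l : Oct a b c}

/-- **Z5**, for the data of a change of the quadratic field. -/
theorem z5_KI (H : HyI ρ σ ι α a b c q) (H1 : HyI ρ1 σ1 ι1 α1 a1 b1 c1 q1)
    (K : KCHI ρ σ ι ρ1 σ1 ι1 ρ' σ' τ' ι' α α1 q q1 u) (σ2 : ∀ t, σ' (σ' t) = t)
    (φ : ATI ρ σ ι α a b c q ≃* ATI ρ1 σ1 ι1 α1 a1 b1 c1 q1)
    (eqv : ∀ (z : ATI ρ σ ι α a b c q) (Z : OctL O a b c ≃ₗ[O] OctL O a b c), IsBc O z.1 Z →
      ∀ x : OctL E1 a1 b1 c1, u (oin O ((φ z).1 x)) = Z (u (oin O x)))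
    (kp : ∀ (z : ATI ρ σ ι α a b c q) (κ : Lˣ), IsKapI ρ z.1 κ ↔ IsKapI ρ1 (φ z).1 κ)
    (hgen : ∀ v : OctL E1 a1 b1 c1, Pt ρ1 v → (∃ μ : E1, Im ι1 v = μ • v) →
      ∃ y ∈ stabsI ρ1 σ1 ι1 α1 a1 b1 c1 q1, ∃ t : E1,
      t ≠ 0 ∧ y.1 (tri ρ1 v (Jm ρ1 σ1 α1 q1 v)) = t • ep α1)
    (h : Trip a b' c' gi j l) {w : Qt a b'} (hw0 : w.re = 0)
    (hw : w * w = (a1 : k) • (1 : Qt a b')) :
    ∃ y ∈ stabsI ρ1 σ1 ι1 α1 a1 b1 c1 q1, ∃ (b2 c2 : kˣ) (j1 l1 : Oct a1 b1 c1)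
      (h1 : Trip a1 b2 c2 gi j1 l1),
        y * φ (tATI ρ σ ι α q h) * y⁻¹ = tATI ρ1 σ1 ι1 α1 q1 h1 := by
  obtain ⟨e, he, hu⟩ := K.hu
  obtain ⟨s, hs, hJ⟩ := K.hJ
  obtain ⟨m, hm, hI⟩ := K.hI
  have hα : algebraMap E O α ≠ 0 := by
    rw [ne_eq, map_eq_zero]
    intro h0
    have h1 := H.α2
    rw [h0, mul_zero] at h1
    exact (map_ne_zero (algebraMap k E)).mpr a.ne_zero h1.symm
  exact z5I H1 K.hρ1 K.hσ1 K.hι1 K.fσ σ2 (by rw [K.hσ, H.σα, map_neg]) hα he hs hm hu hJ hI φ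
    (fun z zO hz x => eqv z zO hz x) (fun z κ => (kp z κ).mp) hgen h hw0 hw

end mainK

end Vale.Agent.P011.D4Y
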