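import Vale.Agent.P011.D4Y.H408.NearI
import Vale.Agent.P011.D4Y.H659.BaseP

/-!
Block D4Y: the planes of the stable singular elements near the standard one.
-/

open Filter Topology NumberField

set_option linter.unusedSectionVars false

namespace Vale.Agent.P011.D4Y

open Vale.Agent.P011.MPQ Vale.Agent.P011.D4 Vale.Agent.P011.D4.Oct Vale.Agent.P011.D4X

section

variable {k L E : Type} [Field k] [NumberField k] [Field L] [Field E] [Algebra k L] [Algebra k E]
  [Algebra L E] [IsScalarTower k L E] {ρ σ ι : E ≃ₐ[k] E} {α : E}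
  {a b c : kˣ} {q : Lˣ} (H : HyI ρ σ ι α a b c q) [NeZero (2 : E)] {P : Subgroup Lˣ}
  (hP : ∀ κ : Lˣ, (∀ w : L →+* ℝ, w (algebraMap k L a) < 0 → 0 < w (κ : L)) → κ ∈ P)

include H hP

/-- **The planes of the stable singular elements near the standard one.** -/
theorem near_genI : ∀ᶠ v in nh (Bd ρ σ q) (ep α * oup E (gl : Oct a b c)), Pt ρ v →
    (∃ μ : E, invo ι v = μ • v) → H659.PPI P ρ σ ι α q v := by
  have : NeZero (2 : k) := ⟨two_ne_zero⟩
  exact H408.near_genI H (fun t ht v => H659.PPI_smul ht) H659.act_near (H659.step_near H hP)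
    (H659.base_PPI H hP)

end

end Vale.Agent.P011.D4Y
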